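import Crest.Agent.X212.Crt72.Props
import Crest.Agent.X212.Eqv71.Cfg
import Crest.Agent.X212.Spn45.Aff
import Crest.Agent.X212.Wz78.Par

-- ▼ part X212/Spn45/Nat
section

/-!
# Row 212, CRIT-NAT (helper45): variations are admissible; naturality on the cross-section
-/

set_option autoImplicit false
set_option linter.unusedSectionVars false
noncomputable section
open scoped Manifold ContDiff Topology InnerProductSpace
open MeasureTheory Set Function Filter

namespace Crest.Agent.X212.Spn45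
open An Wz78 Cyf70 Dgr80 Nd18 Crt72 Eqv71 Mp86

section pt
variable {E : Type} [NormedAddCommGroup E] [NormedSpace ℝ E]
  {HM : Type} [TopologicalSpace HM] {I : ModelWithCorners ℝ E HM}
  {M : Type} [TopologicalSpace M] [ChartedSpace HM M] {ι : Type} [Fintype ι] {lam : Type}
  [Fintype lam] {B : Base M ι lam} {m m' : Md M ι lam} {x : M} {v : En lam} {u : CL m.V m'.V}

theorem me_rho (e : ME m x m' x (fun b a => B.P b a x) v u) (h : m.OK I B) (b : ι) (a : m.V) :
    m'.ρ b x (u a) = u (m.ρ b x a) := by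
  have := e.ρ b
  rw [(h.cl x).proj b] at this
  exact congrArg (fun T : CL m.V m'.V => T a) this

theorem me_hm {U : ι → ι → ℝ} (e : ME m x m' x U (B.l x) u) (h : m.OK I B) (h' : m'.OK I B)
    (ζ : Circle) (s : Eu lam) (a : m.V) {b : m.V} (hb : m.p x b = b) :
    hm m'.J (m'.j x s ((csL m'.J ζ ∘L u) a)) ((csL m'.J ζ ∘L u) b) =
      (ζ : ℂ) ^ 2 * hm m.J (m.j x s a) b := by
  have h2 : (ζ : ℂ) * starRingEnd ℂ ζ = 1 := by rw [Complex.mul_conj, Circle.normSq_coe]; rfl
  have h1 : m'.j x s ((csL m'.J ζ ∘L u) a) =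
      cs m'.J (starRingEnd ℂ ζ * starRingEnd ℂ ζ) ((csL m'.J ζ ∘L u) (m.j x s a)) := by
    simp only [ContinuousLinearMap.comp_apply, csL_apply]
    rw [← h'.jl, ME.cs_j h', e.j_apply, cs_mul h'.Jsq, mul_assoc, mul_comm _ (ζ : ℂ), h2, mul_one]
  rw [h1, hm_cs_left h'.Jsq h'.Jsk, (e.phase h' ζ).hm h _ hb, map_mul, Complex.conj_conj, sq]

theorem ridx_pr {κ κ' : Type} [Fintype κ] [DecidableEq κ] [Fintype κ'] [DecidableEq κ']
    {P : ι → ι → ℝ} (hP : Pr P) {p : En κ} {ξ : Fm (ι × ι) (HS κ)}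
    (h : ξ = ridx (sq2 P) (cj p) ξ) (u : CL (Eu κ) (Eu κ')) (s : ι × ι) :
    ridx (sq2 P) (cj u) ξ s = cj u (ξ s) := by
  have h1 : ridx (sq2 P) (ContinuousLinearMap.id ℝ _) ξ = ξ := by
    rw [h, ridx_ridx]
    simp only [sq2_mul, hP.idem, ContinuousLinearMap.id_comp]
  conv_rhs => rw [← h1]
  simp only [ridx_apply, map_sum, map_smul, ContinuousLinearMap.id_apply]

end pt

variable {E3 : Type} [NormedAddCommGroup E3] [NormedSpace ℝ E3] [FiniteDimensional ℝ E3]
  [MeasurableSpace E3] [BorelSpace E3]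
  {H3 : Type} [TopologicalSpace H3] {I3 : ModelWithCorners ℝ E3 H3} [I3.Boundaryless]
  {Y : Type} [TopologicalSpace Y] [ChartedSpace H3 Y] [IsManifold I3 ∞ Y] [T2Space Y]
  [MeasurableSpace Y] [BorelSpace Y] [SecondCountableTopology Y] [CompactSpace Y]
  {κ : Type} [Fintype κ] {lam : Type} [Fintype lam] {D : YD I3 Y κ lam} {β β' : YC Y κ lam}

theorem admV : AdmV D := fun β hβ y =>
  ⟨⟨hβ.adm.ok, isConn_addC hβ.adm.ok hβ.adm.conn (α := fun x => up κ _ (y.1.1 x.1))
      ((up κ _).contMDiff.comp (sm_fst y.1.2.1)) fun x => PiLp.ext fun a => by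
        have h := y.1.2.2.2 x.1
        refine (Eqv71.idx_apply _ _ _ _).trans ?_
        rw [Fintype.sum_option]
        cases a with
        | none =>
          show (1 : ℝ) • β.m.pg x.1 0 + ∑ b, (0 : ℝ) • β.m.pg x.1 (y.1.1 x.1 b) = 0
          simp
        | some a =>
          show (0 : ℝ) • β.m.pg x.1 0 + ∑ b, D.F.P a b x.1 • β.m.pg x.1 (y.1.1 x.1 b) = y.1.1 x.1 a
          rw [zero_smul, zero_add]
          exact (Eqv71.idx_apply _ _ _ a).symm.trans (congrArg (· a) h),
    hβ.adm.sm.add (sm_fst y.2.2.1),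
    fun x => (map_add _ _ _).trans (congrArg₂ (· + ·) (hβ.adm.pos x) (y.2.2.2.2 x.1)), .inl rfl⟩,
    fun x => (congrArg₂ (· + ·) (hβ.tmp x) (map_zero opL)).trans (add_zero _)⟩

variable (D) in
/-- the background restricted to `Y` -/
def bY : Base Y (Option κ) lam := ⟨fun a b y => D.B.P a b (y, 0), D.o, D.l, D.il⟩

theorem mY (h : D.Adm β) : β.m.OK I3 (bY D) :=
  have H := h.adm.ok
  ⟨H.Jsq, H.Jsk, sm_slice_fst H.sp 0, fun a => sm_slice_fst (H.sρ a) 0, sm_slice_fst H.sj 0,
    fun y => H.psym (y, 0), fun y => H.pidem (y, 0), fun y => H.prk (y, 0), fun y => H.Jp (y, 0),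
    fun y => H.cl (y, 0), fun a y => H.ρsk a (y, 0), fun a y => H.Jρ a (y, 0),
    fun y => H.jsym (y, 0), fun y => H.jJ (y, 0), fun y => H.jil (y, 0), fun y => H.jl (y, 0),
    fun y => H.jsq (y, 0), fun y => H.pj (y, 0), fun a y => H.jρ a (y, 0)⟩

theorem mcY (h : D.Adm β) : Mc I3 (cn β) :=
  ⟨fun a => sm_slice_fst (u := (cy β).W (some a)) (fun x => h.adm.conn.cc.sm (some a) x) 0,
    fun a y => h.adm.conn.sk (some a) (y, 0)⟩

theorem sum_W (h : D.OK) (hβ : D.Adm β) (a : Option κ) (x : Y × ℝ) :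
    ∑ b, D.B.P b a x • β.W b x.1 = β.W a x.1 :=
  (Finset.sum_congr rfl fun b _ => by rw [(h.B.pr x).symm b a]; rfl).trans
    (hβ.adm.conn.cc.proj a x)

theorem nat_eqv (h : D.OK) (hβ : D.Adm β) (hβ' : D.Adm β') (e : D.Eqv β β') :
    ∃ w ζ, YIso D β β' w ζ := by
  obtain ⟨u : Y × ℝ → CL β.m.V β'.m.V, ζ, e⟩ := e
  have hu : Sm (IC I3) u := contMDiffOn_univ.1 e.m.su
  have h1 : ∀ y t, deriv (fun s => u (y, s)) t = 0 := fun y t => by
    have h2 : D.Z.D none u (y, t) + (∑ b, D.B.P b none (y, t) • β'.W b y) ∘L u (y, t) -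
      u (y, t) ∘L β.W none y = 0 := e.W (y, t) trivial none
    rw [sum_W h hβ' none (y, t), hβ.tmp, hβ'.tmp, ContinuousLinearMap.zero_comp,
      ContinuousLinearMap.comp_zero, add_zero, sub_zero] at h2
    exact (D_none D.F.toPre hu (y, t)).symm.trans h2
  have h3 : u = fun x => u (x.1, 0) := funext fun x =>
    is_const_of_deriv_eq_zero ((sm_slice_snd hu x.1).differentiable (by simp)) (h1 x.1) x.2 0
  exact ⟨fun y => u (y, 0), ζ, by rw [h3] at e; exact e⟩

theorem cont_yw (hβ : D.Adm β) {u : List (YL Y)} (hu : ∀ t ∈ u, YL.OK I3 t) :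
    Continuous (yw D.F β u) := by
  have H := mY hβ
  induction u with
  | nil =>
    have hΦ : Continuous β.Φ := (sm_slice_fst hβ.adm.sm 0).continuous
    exact (Continuous.inv₀ (f := fun y => √(1 + ‖β.Φ y‖ ^ 2)) (by fun_prop)
      fun y => by positivity).smul hΦ
  | cons t u ih =>
    have h1 := ih fun s hs => hu s (List.mem_cons_of_mem _ hs)
    have h2 := hu t List.mem_cons_self
    match t, h2 with
    | .mul f, h2 => exact (h2.continuous.smul continuous_const).clm_apply h1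
    | .cl none, _ => exact (H.sρ none).continuous.clm_apply h1
    | .cl (some g), h2 =>
      exact (continuous_finsetSum _ fun a _ =>
        (D.F.sm_D (h2 g rfl) a).continuous.smul (H.sρ _).continuous).clm_apply h1
    | .im, _ => exact β.m.J.continuous.comp h1
    | .G, _ => exact (sm_res _ _ _).continuous

theorem f_cx (hβ : D.Adm β) (d : B2 D) :
    (⟨(yf D (.re d)).f β, (yf D (.im d)).f β⟩ : ℂ) =
      ∫ y, hm β.m.J (β.m.j y (d.1.s y) (yw D.F β d.1.u y)) (yw D.F β d.1.v y) ∂D.F.μ := by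
  have H := mY hβ
  have h1 := ((H.sj.continuous.clm_apply d.2.1.continuous).clm_apply (cont_yw hβ d.2.2.1))
  have h2 := cont_yw hβ d.2.2.2
  have hi : Integrable (fun y => hm β.m.J (β.m.j y (d.1.s y) (yw D.F β d.1.u y))
      (yw D.F β d.1.v y)) D.F.μ :=
    Continuous.integrable_of_hasCompactSupport (Complex.equivRealProdCLM.symm.continuous.comp
      ((h1.inner h2).prodMk (h1.inner (β.m.J.continuous.comp h2)).neg)) (.of_compactSpace _)
  refine Complex.ext (integral_re hi) (Eq.trans ?_ (integral_im hi))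
  exact integral_congr_ae (.of_forall fun y => H.Jsk _ _)

section iso
variable {w : Y → CL β.m.V β'.m.V} {ζ : Circle} (h : D.OK) (hβ : D.Adm β) (hβ' : D.Adm β')
  (e : YIso D β β' w ζ)
include e

theorem meY (y : Y) : ME β.m y β'.m y (fun b a => (bY D).P b a y) ((bY D).l y) (w y) :=
  have H := me_of_meq e.m (mem_univ (y, 0))
  ⟨H.uu, H.uu', H.J, H.ρ, H.j⟩

theorem smY : Sm I3 w := sm_slice_fst (contMDiffOn_univ.1 e.m.su) 0

include h hβ' in
theorem itwY (y : Y) : Itw I3 D.F.e (cn β) (cn β') w y := fun a => by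
  have h1 : D.Z.D (some a) (fun x => w x.1) (y, 0) +
    (∑ b, D.B.P b (some a) (y, 0) • β'.W b y) ∘L w y - w y ∘L β.W (some a) y = 0 :=
    e.W (y, 0) trivial (some a)
  rw [sum_W h hβ' (some a) (y, 0), sub_eq_zero] at h1
  exact (congrArg (· + _) (congrFun (D_some_fst D.F.toPre (smY e) a) (y, 0)).symm).trans h1

include h hβ hβ'

theorem nat_A (y : Y) (a : κ) : (YF.z0 D).gA β' y a = cj (w y) ((YF.z0 D).gA β y a) := by
  have g := lg_refl h.B h.G isOpen_univ
  have k1 := ceq_eC (τ := pt0) (τ' := pt0) g (ad0 hβ.adm) (ad0 hβ'.adm) e (mem_univ (y, 0))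
    (map_zero _).symm
  have k0 := ceq_eC (τ := pt0) (τ' := pt0) g (ad0 hβ.adm) (ad0 hβ.adm)
    (ceq_refl h.B h.G (ad0 hβ.adm) isOpen_univ) (mem_univ (y, 0)) (map_zero _).symm
  exact (congrArg ((1 / 2 : ℝ) • ·) ((congrArg (· (none, some a)) k1).trans
    (ridx_pr (h.B.pr (y, 0)) k0 _ _))).trans (map_smul _ _ _).symm

theorem nat_P (y : Y) : (YF.z0 D).gP β' y = cs β'.m.J ζ (w y ((YF.z0 D).gP β y)) := by
  have k1 : (cy β').eD D.G pt0 (y, 0) = (csL β'.m.J ζ ∘L w y) ((cy β).eD D.G pt0 (y, 0)) :=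
    ceq_eD (τ := pt0) (τ' := pt0) (lg_refl h.B h.G isOpen_univ) (ad0 hβ.adm) (ad0 hβ'.adm) e
      (mem_univ (y, 0)) (map_zero (csL β'.m.J ζ ∘L w y)).symm
  exact ((congrArg (fun a => -β'.m.ρ none y a) k1).trans (congrArg Neg.neg
    (me_rho ((meY e y).phase (mY hβ') ζ) (mY hβ) none _))).trans (map_neg _ _).symm

/-- words are natural -/
theorem rel_yw (u : List (YL Y)) : (∀ y, yw D.F β' u y = (csL β'.m.J ζ ∘L w y) (yw D.F β u y)) ∧
    ∀ y, β.m.p y (yw D.F β u y) = yw D.F β u y := by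
  have H := mY hβ
  have me := fun y => (meY e y).phase (mY hβ') ζ
  have pρ : ∀ b y a, β.m.p y (β.m.ρ b y a) = β.m.ρ b y a := fun b y a =>
    congrArg (fun T : En _ => T a) ((H.cl y).pl b)
  induction u with
  | nil =>
    have h1 : ∀ y, β'.Φ y = (csL β'.m.J ζ ∘L w y) (β.Φ y) := fun y => e.Φ (y, 0) trivial
    have h2 : ∀ y, β.m.p y (β.Φ y) = β.Φ y := fun y => p_Φ (ad0 hβ.adm) (y, 0)
    refine ⟨fun y => ?_, fun y => ?_⟩
    · show (√(1 + ‖β'.Φ y‖ ^ 2))⁻¹ • β'.Φ y = (csL β'.m.J ζ ∘L w y) (_ • β.Φ y)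
      rw [map_smul, h1, (me y).norm (h2 y)]
    · show β.m.p y (_ • β.Φ y) = _ • β.Φ y
      rw [map_smul, h2]
  | cons t u ih =>
    obtain ⟨h1, h2⟩ := ih
    match t with
    | .mul f =>
      refine ⟨fun y => ?_, fun y => ?_⟩
      · show f y • yw D.F β' u y = (csL β'.m.J ζ ∘L w y) (f y • yw D.F β u y)
        rw [map_smul, h1]
      · show β.m.p y (f y • yw D.F β u y) = f y • yw D.F β u y
        rw [map_smul, h2]
    | .cl none =>
      exact ⟨fun y => (congrArg (β'.m.ρ none y) (h1 y)).trans (me_rho (me y) H none _),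
        fun y => pρ none y _⟩
    | .cl (some g) =>
      refine ⟨fun y => ?_, fun y => ?_⟩
      · show (∑ a, D.F.D a g y • β'.m.ρ (some a) y) (yw D.F β' u y) =
          (csL β'.m.J ζ ∘L w y) ((∑ a, D.F.D a g y • β.m.ρ (some a) y) (yw D.F β u y))
        simp only [_root_.sum_apply, smul_apply, map_sum, map_smul, h1, me_rho (me y) H]
      · show β.m.p y ((∑ a, D.F.D a g y • β.m.ρ (some a) y) (yw D.F β u y)) =
          (∑ a, D.F.D a g y • β.m.ρ (some a) y) (yw D.F β u y)
        simp only [_root_.sum_apply, smul_apply, map_sum, map_smul, pρ]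
    | .im =>
      exact ⟨fun y => (congrArg β'.m.J (h1 y)).trans ((me y).J_apply _), fun y =>
        (congrArg (fun T : En _ => T (yw D.F β u y)) (H.Jp y)).symm.trans (congrArg β.m.J (h2 y))⟩
    | .G =>
      have sT : Sm I3 fun y => csL β'.m.J ζ ∘L w y := fun y => sa_comp contMDiffAt_const (smY e y)
      have sT' : Sm I3 fun y => trn (csL β'.m.J ζ ∘L w y) := fun y => sa_trn (sT y)
      have iT := fun y => itw_csL (itwY h hβ' e y) (smY e y)
        (fun a => hβ'.adm.conn.J (some a) (y, 0)) ζ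
      have iT' := fun y => (iT y).trn (sT y) (fun a => (mcY hβ).sk a y) fun a => (mcY hβ').sk a y
      have bd : ∀ {N : Type} [NormedAddCommGroup N] {f : Y → N}, Continuous f →
          ∃ C, ∀ y, ‖f y‖ ≤ C := fun hf =>
        (isCompact_univ.exists_bound_of_continuousOn hf.continuousOn).imp fun _ k y => k y trivial
      have uu : ∀ y a, trn (csL β'.m.J ζ ∘L w y) ((csL β'.m.J ζ ∘L w y) a) = β.m.p y a :=
        fun y a => congrArg (fun T : En _ => T a) (me y).uu
      have k1 := res_map (F := D.F) (s := yw D.F β u) bumps_of_compact (mcY hβ).sm (mcY hβ') sT sT'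
        (bd sT.continuous) (bd sT'.continuous) iT iT' fun y => (uu y _).trans (h2 y)
      have k2 := res_map (F := D.F) (s := yw D.F β' u) bumps_of_compact (mcY hβ').sm (mcY hβ) sT'
        sT (bd sT'.continuous) (bd sT.continuous) iT' iT fun y => by rw [h1, uu, h2]
      rw [← funext h1] at k1
      simp only [h1, uu, h2] at k2
      rw [k1] at k2
      exact ⟨congrFun k1, fun y => (uu y _).symm.trans (congrFun k2 y).symm⟩

theorem nat_sw (j : Bw D) : (yf D (.sw j)).f β' = (yf D (.sw j)).f β :=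
  integral_congr_ae (.of_forall fun y => by
    show ⟪yw D.F β' j.1.1 y, yw D.F β' j.1.2 y⟫_ℝ = ⟪yw D.F β j.1.1 y, yw D.F β j.1.2 y⟫_ℝ
    rw [(rel_yw h hβ hβ' e _).1, (rel_yw h hβ hβ' e _).1, ((meY e y).phase (mY hβ') ζ).inner,
      (rel_yw h hβ hβ' e _).2])

theorem nat_s (j : B2 D) : (⟨(yf D (.re j)).f β', (yf D (.im j)).f β'⟩ : ℂ) =
    (ζ : ℂ) ^ 2 * ⟨(yf D (.re j)).f β, (yf D (.im j)).f β⟩ := by
  rw [f_cx hβ, f_cx hβ', ← integral_const_mul]
  refine integral_congr_ae (.of_forall fun y => ?_)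
  simp only [(rel_yw h hβ hβ' e _).1]
  exact me_hm (meY e y) (mY hβ) (mY hβ') ζ _ _ ((rel_yw h hβ hβ' e _).2 y)

end iso

variable (D) in
/-- **CRIT-NAT** -/
theorem natStmt : NatStmt D := fun h =>
  ⟨admV, fun _ _ => nat_eqv h.ok, fun _ _ _ _ => nat_A h.ok, fun _ _ _ _ => nat_P h.ok,
    fun _ _ _ _ => nat_sw h.ok, fun _ _ _ _ => nat_s h.ok⟩

end Crest.Agent.X212.Spn45
end
end

-- ▼ part X212/Spn45/Lift

/-!
# Row 212, CRIT-LIFT (helper45): words on the cylinder are the lifts of the words on `Y`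
-/

set_option autoImplicit false
set_option linter.unusedSectionVars false
noncomputable section
open scoped Manifold ContDiff Topology InnerProductSpace
open MeasureTheory Set Function Filter

namespace Crest.Agent.X212.Spn45
open An Wz78 Cyf70 Dgr80 Nd18 Crt72 Mp86
open Sob92 (dv)
open Wrd81 (wd)

variable {E3 : Type} [NormedAddCommGroup E3] [NormedSpace ℝ E3] [FiniteDimensional ℝ E3]
  [MeasurableSpace E3] [BorelSpace E3]
  {H3 : Type} [TopologicalSpace H3] {I3 : ModelWithCorners ℝ E3 H3} [I3.Boundaryless]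
  {Y : Type} [TopologicalSpace Y] [ChartedSpace H3 Y] [IsManifold I3 ∞ Y] [T2Space Y]
  [MeasurableSpace Y] [BorelSpace Y] [SecondCountableTopology Y] [CompactSpace Y]
  {κ : Type} [Fintype κ] {lam : Type} [Fintype lam]

section calculus
variable {N : Type} [NormedAddCommGroup N] [NormedSpace ℝ N] {e : κ → Π y : Y, TangentSpace I3 y}

theorem dv_fst (s : Y → N) (a : Option κ) :
    dv (IC I3) (ce e a) (fun x => s x.1) = ca (fun a => dv I3 (e a) s) a := funext fun x => by
  by_cases h : MDifferentiableAt I3 𝓘(ℝ, N) s x.1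
  · have h1 := h.comp x (mdifferentiableAt_fst (I' := 𝓘(ℝ, ℝ)))
    cases a with
    | none => exact (dv_none h1).trans (deriv_const x.2 (s x.1))
    | some a => exact dv_some h1 a
  · have h1 : ¬MDifferentiableAt (IC I3) 𝓘(ℝ, N) (fun x : Y × ℝ => s x.1) x :=
      fun k => h (mdiff_slice_fst k)
    cases a <;> simp only [Sob92.dv, ca, mfderiv_zero_of_not_mdifferentiableAt h,
      mfderiv_zero_of_not_mdifferentiableAt h1] <;> rfl

theorem dv_sh {w : Y × ℝ → N} (hw : Sm (IC I3) w) (c : ℝ) (a : Option κ) (x : Y × ℝ) :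
    dv (IC I3) (ce e a) (fun x => w (x.1, x.2 + c)) x = dv (IC I3) (ce e a) w (x.1, x.2 + c) := by
  have h1 : Sm (IC I3) fun x : Y × ℝ => w (x.1, x.2 + c) :=
    hw.comp (contMDiff_fst.prodMk (contMDiff_snd.add contMDiff_const))
  cases a with
  | none =>
    rw [dv_none (h1.mdifferentiableAt (by simp)), dv_none (hw.mdifferentiableAt (by simp))]
    exact deriv_comp_add_const (fun s => w (x.1, s)) c x.2
  | some a =>
    rw [dv_some (h1.mdifferentiableAt (by simp)), dv_some (hw.mdifferentiableAt (by simp))]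

theorem sm_ca {A : κ → Y → N} (h : ∀ a, Sm I3 (A a)) (a : Option κ) : Sm (IC I3) (ca A a) := by
  cases a
  exacts [contMDiff_const, sm_fst (h _)]

theorem bumps_cyl (F : Fr I3 Y κ) : Bumps (IC I3) (cyl F).e (cyl F).dv := by
  let g : ContDiffBump (0 : ℝ) := ⟨1, 2, one_pos, one_lt_two⟩
  have hg : ContDiff ℝ ∞ g := g.contDiff
  obtain ⟨C, hC⟩ := (hg.iterate_deriv 2).continuous.bounded_above_of_compact_support
    g.hasCompactSupport.deriv.deriv
  refine ⟨C, fun x => ⟨fun y => g (y.2 - x.2), cm2 (sm_snd (hg.comp (contDiff_id.sub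
    contDiff_const))), ?_, fun _ => g.le_one, by simpa using g.one_of_mem_closedBall (by simp [g]),
    fun y => ?_⟩⟩
  · refine HasCompactSupport.intro (isCompact_univ.prod (isCompact_closedBall x.2 2)) fun y hy => ?_
    refine g.zero_of_le_dist (le_of_not_ge fun k => hy ⟨trivial, ?_⟩)
    simpa [dist_eq_norm] using k
  · have h1 : ContDiff ℝ ∞ fun t => g (t - x.2) := hg.comp (contDiff_id.sub contDiff_const)
    have h2 := fun a => D_some_snd F.toPre h1 a
    have h3 := D_none_snd F.toPre h1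
    have h4 := D_none_snd F.toPre (h1.iterate_deriv 1)
    simp only [Pre.D_def] at h2 h3 h4
    have h5 : Lop (IC I3) (cyl F).e (cyl F).dv (fun y => g (y.2 - x.2)) y =
        deriv (deriv fun t => g (t - x.2)) y.2 := by
      rw [Lop, Fintype.sum_option]
      erw [h3, h4]
      simp only [show ∀ a, (cyl F).e a = (cylP F.toPre).e a from fun _ => rfl, h2, Sob92.dv_zero]
      simp [cyl, Cyf70.cd]
    rw [h5, show (deriv fun t => g (t - x.2)) = fun t => deriv g (t - x.2) from
      funext fun t => deriv_comp_sub_const _ _ _, deriv_comp_sub_const]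
    exact (abs_le.1 (hC _)).1

end calculus

section engine
variable {V U : Type} [NormedAddCommGroup V] [InnerProductSpace ℝ V] [CompleteSpace V]
  [NormedAddCommGroup U] [InnerProductSpace ℝ U] [CompleteSpace U]
  (F : Fr I3 Y κ) {A : κ → Y → CL V V} (r : CL U (CL V V))

theorem nab_ca (s : Y → V) (a : Option κ) : nab (IC I3) (cyl F).e (ca A) a (fun x => s x.1) =
    ca (fun a => nab I3 F.e A a s) a := funext fun x => by
  refine (congrArg (· + _) (congrFun (dv_fst s a) x)).trans ?_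
  cases a
  exacts [zero_add _, rfl]

theorem lap_ca (s : Y → V) (x : Y × ℝ) :
    lap (IC I3) (cyl F).e (cyl F).dv (ca A) (fun x => s x.1) x = lap I3 F.e F.dv A s x.1 := by
  have h0 := nab_ca F (A := A) (fun _ => 0) none
  simp only [lap, nab_ca, Fintype.sum_option, ca] at h0 ⊢
  simp only [h0, smul_zero, add_zero, zero_add]
  rfl

theorem isRes_ca {s u : Y → V} (h : F.IsRes A s u) :
    (cyl F).IsRes (ca A) (fun x => s x.1) fun x => u x.1 :=
  ⟨sm_fst h.1, h.2.1.imp fun _ k x => k x.1, fun x => by rw [lap_ca, h.2.2]⟩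

theorem mc_ca (hA : Mc I3 A) : Mc (IC I3) (ca A) :=
  ⟨sm_ca hA.sm, fun a x => by
    cases a
    exacts [fun _ _ => by simp [ca], hA.sk _ _]⟩

/-- **the resolvent of the cylinder on `t`-invariant sections** -/
theorem res_cyl (hA : Mc I3 A) (s : Y → V) :
    (cyl F).res (ca A) (fun x => s x.1) = fun x => F.res A s x.1 := by
  have hB := bumps_cyl F
  have hZ := mc_ca hA
  rcases res_cases F A s with h | h
  · exact res_eq hB hZ (isRes_ca F h)
  rcases res_cases (cyl F) (ca A) (fun x => s x.1) with k | k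
  · generalize (cyl F).res (ca A) (fun x => s x.1) = w at k
    have h1 : ∀ (c : ℝ) a {w : Y × ℝ → V}, Sm (IC I3) w → nab (IC I3) (cyl F).e (ca A) a
        (fun x => w (x.1, x.2 + c)) = fun x => nab (IC I3) (cyl F).e (ca A) a w (x.1, x.2 + c) :=
      fun c a w hw => funext fun x => congrArg₂ (· + ·) (dv_sh hw c a x) (by cases a <;> rfl)
    have h2 : ∀ c : ℝ, (fun x : Y × ℝ => w (x.1, x.2 + c)) = w := fun c =>
      isRes_unique hB hZ ⟨k.1.comp (contMDiff_fst.prodMk (contMDiff_snd.add contMDiff_const)),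
        k.2.1.imp fun _ b x => b _, fun x => by
          refine Eq.trans ?_ (k.2.2 (x.1, x.2 + c))
          simp only [lap, h1 c _ k.1, fun a => h1 c a (sm_nab (F := cyl F) hZ.sm a k.1)]
          congr 2
          exact Finset.sum_congr rfl fun a _ => by cases a <;> rfl⟩ k
    have h3 : w = fun x => w (x.1, 0) := funext fun x =>
      (by rw [zero_add] : w x = w (x.1, 0 + x.2)).trans (congrFun (h2 x.2) (x.1, 0))
    refine (h.1 ⟨fun y => w (y, 0), sm_slice_fst k.1 0, k.2.1.imp fun _ b y => b _, fun y => ?_⟩).elim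
    have h4 := k.2.2 (y, 0)
    rwa [h3, lap_ca F fun y => w (y, 0)] at h4
  · rw [h.2, k.2]; rfl

/-- the lift of a letter -/
def zl : SL Y V → SL (Y × ℝ) V
  | .op T => .op fun x => T x.1
  | .G => .G

variable (hA : Mc I3 A)
include hA

theorem wd_zl (s : Y → V) (w : List (SL Y V)) :
    wd (sl (cyl F) (ca A)) (fun x => s x.1) (w.map zl) = fun x => wd (sl F A) s w x.1 := by
  induction w with
  | nil => rfl
  | cons t w ih =>
    rw [List.map_cons, Wrd81.wd_cons, ih]
    cases t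
    exacts [rfl, res_cyl F hA _]

theorem bk_zl (w : List (SL Y V)) (l : Y → V) :
    bk (cyl F) (ca A) (w.map zl) (fun x => l x.1) = fun x => bk F A w l x.1 := by
  induction w generalizing l with
  | nil => rfl
  | cons t w ih =>
    cases t with
    | op T => exact ih (slT F A (.op T) l)
    | G => exact (congrArg (bk _ _ _) (res_cyl F hA l)).trans (ih _)

theorem gc_zl (s : Y → V) (w : List (SL Y V)) (l : Y → V) (x : Y × ℝ) :
    dw κ U (gc (cyl F) (ca A) r (fun x => s x.1) (w.map zl) (fun x => l x.1) x) =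
      gc F A r s w l x.1 := by
  induction w generalizing l with
  | nil => exact map_zero _
  | cons t w ih =>
    cases t with
    | op T => exact ih (slT F A (.op T) l)
    | G =>
      simp only [List.map_cons, zl, gc, wd_zl F hA, res_cyl F hA, map_sub, ih]
      congr 1
      ext1 a
      simp only [dw, cur, nab_ca]
      rfl

theorem bk_smul (a : ℝ) (w : List (SL Y V)) (l : Y → V) :
    bk F A w (fun y => a • l y) = fun y => a • bk F A w l y := by
  induction w generalizing l with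
  | nil => rfl
  | cons t w ih =>
    cases t with
    | op T => simp only [bk, slT, map_smul, ih]
    | G => simp only [bk, slT, res_smul bumps_of_compact hA, ih]

theorem gc_smul (a : ℝ) (s : Y → V) (w : List (SL Y V)) (l : Y → V) (y : Y) :
    gc F A r s w (fun y => a • l y) y = a • gc F A r s w l y := by
  induction w generalizing l with
  | nil => exact (smul_zero _).symm
  | cons t w ih =>
    cases t with
    | op T => simp only [gc, slT, map_smul, ih]
    | G =>
      simp only [gc, res_smul bumps_of_compact hA, ih, smul_sub]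
      congr 1
      ext1 b
      simp only [cur, nab_csmul b a (sm_res F A l y), tp, map_smul, smul_apply, PiLp.smul_apply,
        smul_add]

end engine

variable {D : YD I3 Y κ lam} {β : YC Y κ lam}

theorem nk_χ (x : Y × ℝ) : D.nk.χ x = 1 := by simp [Nk.χ, YD.nk, ct]

theorem nk_τ : D.nk.τ = Prod.snd := funext fun x => by simp [Nk.τ, YD.nk, tf]

theorem nk_ext {N : Type} [NormedAddCommGroup N] [NormedSpace ℝ N] (f : Y → N) :
    D.nk.ext f = fun x => f x.1 := funext fun x => by rw [Nk.ext, nk_χ, one_smul]; rfl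

theorem sum_dt {N : Type} [AddCommMonoid N] [Module ℝ N] (f : Option κ → N) (x : Y × ℝ) :
    ∑ a, D.Z.D a Prod.snd x • f a = f none := by
  have h1 : D.Z.D none Prod.snd x = 1 :=
    (congrFun (D_none_snd D.F.toPre contDiff_id) x).trans (deriv_id _)
  have h2 : ∀ a, D.Z.D (some a) Prod.snd x = 0 := fun a =>
    congrFun (D_some_snd D.F.toPre contDiff_id a) x
  simp only [Fintype.sum_option, h1, h2, one_smul, zero_smul, Finset.sum_const_zero, add_zero]

theorem W_ca (hβ : D.Adm β) : (cy β).W = ca (cn β) := funext₂ fun a x => by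
  cases a
  exacts [hβ.tmp _, rfl]

theorem lt_zl (u : List (YL Y)) :
    (u.map D.nk.lt).map (ltS D.Z (cy β)) = (u.map (ylt D.F β)).map zl := by
  rw [List.map_map, List.map_map]
  refine List.map_congr_left fun t _ => ?_
  match t with
  | .mul f => exact congrArg SL.op (funext fun x => by rw [nk_ext]; rfl)
  | .cl none =>
    exact congrArg SL.op (funext fun x => by rw [Nk.fn, nk_τ]; exact sum_dt _ x)
  | .cl (some g) =>
    refine congrArg SL.op (funext fun x => ?_)
    have h0 : D.Z.D none (fun x => g x.1) x = 0 := congrFun (dv_fst (e := D.F.e) g none) x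
    have h1 : ∀ a, D.Z.D (some a) (fun x => g x.1) x = D.F.D a g x.1 :=
      fun a => congrFun (dv_fst g (some a)) x
    rw [Nk.fn, nk_ext, Fintype.sum_option]
    simp only [h0, h1, zero_smul, zero_add]
    rfl
  | .im => rfl
  | .G => rfl

section sw
variable (hβ : D.Adm β)
include hβ

theorem nw_zl (u : List (YL Y)) : nw D.Z (cy β) (u.map D.nk.lt) = fun x => yw D.F β u x.1 := by
  rw [nw_eq, lt_zl, W_ca hβ]
  exact wd_zl D.F (mcY hβ) (nP β) _

theorem swA_zl (u : List (YL Y)) (a : ℝ) (l : Y → β.m.V) (x : Y × ℝ) :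
    dw κ β.m.A (swA D.Z (cy β) (u.map D.nk.lt) (fun x => a • l x.1) x) = a • ywA D.F β u l x.1 := by
  rw [swA, lt_zl, W_ca hβ]
  exact (gc_zl D.F opL (mcY hβ) (nP β) _ (fun y => a • l y) x).trans
    (gc_smul D.F opL (mcY hβ) a _ _ _ _)

theorem swP_zl (u : List (YL Y)) (a : ℝ) (l : Y → β.m.V) (x : Y × ℝ) :
    swP D.Z (cy β) (u.map D.nk.lt) (fun x => a • l x.1) x = a • ywP D.F β u l x.1 := by
  rw [swP, lt_zl, W_ca hβ]
  refine (congrArg (dn (cy β) · x) ((bk_zl D.F (mcY hβ) _ fun y => a • l y).trans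
    (funext fun x => congrFun (bk_smul D.F (mcY hβ) a _ l) x.1))).trans ?_
  show dn β (fun y => a • _) x.1 = a • dn β _ x.1
  simp only [dn, real_inner_smul_right]
  module

variable {T : Pk Y lam} {T' : Pk (Y × ℝ) lam} (hT : ∀ x, pk (cy β) T' x = pk β T x.1)
include hT

theorem tst_zl (v : List (YL Y)) (a : ℝ) :
    (fun y => (a * D.nk.χ y) • pk (cy β) T' y (nw D.Z (cy β) (v.map D.nk.lt) y)) =
      fun x => a • pk β T x.1 (yw D.F β v x.1) := funext fun x => by
  rw [nk_χ, mul_one, nw_zl hβ, hT]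
  rfl

theorem lift_h (u v : List (YL Y)) {δ : ℝ} (t : ℝ) (hδ : 0 < δ) : wn D.Z.μ D.nk.τ δ
    ((dcut D.nk.χ (Den.sw D.Z T' (u.map D.nk.lt) (v.map D.nk.lt))).h (cy β)) t =
      (YF.sw D.F T u v).f β := by
  have h : (dcut D.nk.χ (Den.sw D.Z T' (u.map D.nk.lt) (v.map D.nk.lt))).h (cy β) =
      fun x => ⟪pk β T x.1 (yw D.F β u x.1), yw D.F β v x.1⟫_ℝ := funext fun x => by
    show D.nk.χ x * ⟪pk (cy β) T' x (nw D.Z (cy β) _ x), nw D.Z (cy β) _ x⟫_ℝ = _
    rw [nk_χ, one_mul, nw_zl hβ, nw_zl hβ, hT]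
    rfl
  simp only [h, nk_τ, wn, smul_eq_mul, mul_comm (b _ _)]
  refine (integral_prod_mul (μ := D.F.μ) (ν := volume)
    (fun y => ⟪pk β T y (yw D.F β u y), yw D.F β v y⟫_ℝ) fun s => b δ (s - t)).trans ?_
  rw [integral_sub_right_eq_self (b δ), integral_b hδ, mul_one]
  rfl

theorem lift_A (u v : List (YL Y)) (a : ℝ) (x : Y × ℝ) : dw κ β.m.A
    ((dcut D.nk.χ (Den.sw D.Z T' (u.map D.nk.lt) (v.map D.nk.lt))).gA (cy β) (fun _ => a) x) =
      a • (YF.sw D.F T u v).gA β x.1 := by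
  have h := fun u v => (congrArg (fun l => dw κ β.m.A (swA D.Z (cy β) (List.map D.nk.lt u) l x))
    (tst_zl hβ hT v a)).trans (swA_zl hβ u a (fun z => pk β T z (yw D.F β v z)) x)
  exact (map_add (dw κ β.m.A) _ _).trans
    ((congrArg₂ (· + ·) (h u v) (h v u)).trans (smul_add a _ _).symm)

theorem lift_P (u v : List (YL Y)) (a : ℝ) (x : Y × ℝ) :
    (dcut D.nk.χ (Den.sw D.Z T' (u.map D.nk.lt) (v.map D.nk.lt))).gP (cy β) (fun _ => a) x =
      a • (YF.sw D.F T u v).gP β x.1 := by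
  have h := fun u v => (congrArg (fun l => swP D.Z (cy β) (List.map D.nk.lt u) l x)
    (tst_zl hβ hT v a)).trans (swP_zl hβ u a (fun z => pk β T z (yw D.F β v z)) x)
  exact (congrArg₂ (fun s t : β.m.V => s + t) (h u v) (h v u)).trans (smul_add a _ _).symm

end sw

variable (D) in
/-- **CRIT-LIFT** -/
theorem liftStmt : LiftStmt D := fun _ j hj β hβ => by
  have h1 : ∀ x, pk (cy β) .one x = pk β .one x.1 := fun _ => rfl
  have h2 : ∀ s x, pk (cy β) (.re (D.nk.ext s)) x = pk β (.re s) x.1 := fun s x => by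
    rw [nk_ext]; rfl
  have h3 : ∀ s x, pk (cy β) (.im (D.nk.ext s)) x = pk β (.im s) x.1 := fun s x => by
    rw [nk_ext]; rfl
  match j, hj with
  | .cy c, hj => exact (hj c rfl).elim
  | .sw p, _ => exact ⟨fun _ => lift_h hβ h1 _ _, fun a x =>
      ⟨lift_A hβ h1 _ _ a x, lift_P hβ h1 _ _ a x⟩⟩
  | .re d, _ => exact ⟨fun _ => lift_h hβ (h2 _) _ _, fun a x =>
      ⟨lift_A hβ (h2 _) _ _ a x, lift_P hβ (h2 _) _ _ a x⟩⟩
  | .im d, _ => exact ⟨fun _ => lift_h hβ (h3 _) _ _, fun a x =>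
      ⟨lift_A hβ (h3 _) _ _ a x, lift_P hβ (h3 _) _ _ a x⟩⟩

end Crest.Agent.X212.Spn45
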