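import Mathlib
import Crest.Agent.X212.Std94.Proj
import Crest.Agent.X212.Wz78.Lich
import Crest.Agent.X212.Wz78.Var

-- ▼ part X212/Spn45/Alg
section

/-!
# X212 / SPIN (helper45), file Alg: pointwise Clifford algebra

`A` a real algebra, `p` an idempotent, `γ j` generators with `γ j γ k + γ k γ j = -2 δ p`.
* `inner`  : every derivation datum `τ` is inner;
* `omega4` : in dimension four the explicit solution `-η/4 - C η/32`, `η = ∑ γ τ`, `C T = -∑ γ T γ`;
* `Cl P p ρ` : the same for a spanning family with Gram matrix a projector `P` of trace four.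
-/

set_option autoImplicit false
set_option linter.unusedSectionVars false
set_option linter.unusedSimpArgs false
set_option linter.unusedVariables false

open Finset

namespace Crest.Agent.X212.Spn45

noncomputable section

variable {A : Type*} [Ring A] [Algebra ℝ A]

/-- orthonormal Clifford generators in the corner of `p` -/
structure ON {n : Type*} (p : A) (γ : n → A) : Prop where
  pl : ∀ j, p * γ j = γ j
  pr : ∀ j, γ j * p = γ j
  sq : ∀ j, γ j * γ j = -p
  ac : ∀ j k, j ≠ k → γ j * γ k = -(γ k * γ j)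

/-- derivation data -/
structure Der {n : Type*} (p : A) (γ τ : n → A) : Prop where
  pl : ∀ j, p * τ j = τ j
  pr : ∀ j, τ j * p = τ j
  rel : ∀ j k, τ j * γ k + γ j * τ k + τ k * γ j + γ k * τ j = 0

theorem two_cancel {x : A} (h : x + x = 0) : x = 0 := by
  have : (2 : ℝ) • x = 0 := by rw [two_smul]; exact h
  simpa using this

theorem Der.ac {n : Type*} {p : A} {γ τ : n → A} (h : Der p γ τ) (j : n) :
    τ j * γ j = -(γ j * τ j) := by
  have := h.rel j j
  have h2 : τ j * γ j + γ j * τ j = 0 := two_cancel (by rw [← this]; abel)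
  exact eq_neg_of_add_eq_zero_left h2

theorem Der.shift {n : Type*} [DecidableEq n] {p : A} {γ τ : n → A} (hγ : ON p γ) (h : Der p γ τ)
    {ω : A} (hl : p * ω = ω) (hr : ω * p = ω) :
    Der p γ (fun j => τ j + (ω * γ j - γ j * ω)) where
  pl j := by
    rw [mul_add, mul_sub, ← mul_assoc, ← mul_assoc, h.pl, hl, hγ.pl]
  pr j := by
    rw [add_mul, sub_mul, mul_assoc, mul_assoc, h.pr, hr, hγ.pr]
  rel j k := by
    have h1 := h.rel j k
    have h2 : ω * (γ j * γ k + γ k * γ j) = (γ j * γ k + γ k * γ j) * ω := by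
      by_cases hjk : j = k
      · subst hjk
        rw [hγ.sq, mul_add, add_mul, mul_neg, neg_mul, hl, hr]
      · rw [hγ.ac j k hjk]; simp
    have : (τ j + (ω * γ j - γ j * ω)) * γ k + γ j * (τ k + (ω * γ k - γ k * ω)) +
        (τ k + (ω * γ k - γ k * ω)) * γ j + γ k * (τ j + (ω * γ j - γ j * ω)) =
        (τ j * γ k + γ j * τ k + τ k * γ j + γ k * τ j) +
          (ω * (γ j * γ k + γ k * γ j) - (γ j * γ k + γ k * γ j) * ω) := by noncomm_ring
    rw [this, h1, h2]; simp

/-- **every derivation datum is inner**, by an element commuting with a given grading -/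
theorem inner_fin {n : Type*} [DecidableEq n] {p : A} {γ : n → A} (hγ : ON p γ) (G : A)
    (hG : ∀ j, G * γ j = -(γ j * G)) (s : Finset n) :
    ∀ τ : n → A, Der p γ τ → (∀ j, G * τ j = -(τ j * G)) →
      ∃ ω : A, p * ω = ω ∧ ω * p = ω ∧ G * ω = ω * G ∧
        ∀ j ∈ s, τ j + (ω * γ j - γ j * ω) = 0 := by
  induction s using Finset.induction_on with
  | empty => intro τ _ _; exact ⟨0, by simp, by simp, by simp, by simp⟩
  | insert k s hk ih =>
    intro τ hτ hGτ
    obtain ⟨ω, hl, hr, hc, hs⟩ := ih τ hτ hGτ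
    have h1 := hτ.shift hγ hl hr
    set τ' : n → A := fun j => τ j + (ω * γ j - γ j * ω) with hτ'
    have hG' : G * τ' k = -(τ' k * G) := by
      simp only [hτ']
      have e1 : G * (ω * γ k) = -(ω * γ k * G) := by
        rw [← mul_assoc, hc, mul_assoc, hG, mul_neg, mul_assoc]
      have e2 : G * (γ k * ω) = -(γ k * ω * G) := by
        rw [← mul_assoc, hG, neg_mul, mul_assoc, hc, mul_assoc]
      rw [mul_add, mul_sub, hGτ, e1, e2]; noncomm_ring
    set β : A := (-(1 / 2 : ℝ)) • (γ k * τ' k) with hβ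
    have hβk : β * γ k - γ k * β = -τ' k := by
      rw [hβ, smul_mul_assoc, mul_smul_comm, ← smul_sub, mul_assoc, h1.ac k, mul_neg,
        ← mul_assoc, hγ.sq, neg_mul, h1.pl]
      rw [neg_neg, sub_neg_eq_add, ← two_smul ℝ, smul_smul]; norm_num
    have hβj : ∀ j ∈ s, β * γ j - γ j * β = 0 := by
      intro j hj
      have hjk : k ≠ j := fun e => hk (e ▸ hj)
      have h0 : τ' j = 0 := hs j hj
      have h2 := h1.rel j k
      rw [h0] at h2
      have h3 : τ' k * γ j = -(γ j * τ' k) := by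
        apply eq_neg_of_add_eq_zero_left
        rw [← h2]; noncomm_ring
      rw [hβ, smul_mul_assoc, mul_smul_comm, ← smul_sub, mul_assoc, h3, mul_neg, ← mul_assoc,
        hγ.ac k j hjk, neg_mul, neg_neg, mul_assoc, sub_self, smul_zero]
    refine ⟨ω + β, ?_, ?_, ?_, ?_⟩
    · rw [mul_add, hl, hβ, mul_smul_comm, ← mul_assoc, hγ.pl]
    · rw [add_mul, hr, hβ, smul_mul_assoc, mul_assoc, h1.pr]
    · rw [mul_add, add_mul, hc, hβ, mul_smul_comm, smul_mul_assoc, ← mul_assoc, hG, neg_mul,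
        mul_assoc, hG', mul_neg, neg_neg, mul_assoc]
    · intro j hj
      have : τ j + ((ω + β) * γ j - γ j * (ω + β)) = τ' j + (β * γ j - γ j * β) := by
        simp only [hτ']; noncomm_ring
      rw [this]
      rcases Finset.mem_insert.1 hj with rfl | hj
      · rw [hβk]; simp
      · rw [hβj j hj, add_zero]; exact hs j hj

/-- the Casimir operator `T ↦ -∑ ρ T ρ` -/
def cas {ι : Type*} [Fintype ι] (ρ : ι → A) (T : A) : A := -∑ a, ρ a * T * ρ a

/-- the trace `∑ ρ θ` -/
def eta {ι : Type*} [Fintype ι] (ρ θ : ι → A) : A := ∑ a, ρ a * θ a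

/-- the explicit inner derivation in dimension four -/
def omega {ι : Type*} [Fintype ι] (ρ θ : ι → A) : A :=
  (-(1 / 4 : ℝ)) • eta ρ θ - (1 / 32 : ℝ) • cas ρ (eta ρ θ)

section four

variable {p : A} {γ : Fin 4 → A}

/-- conjugation by a generator -/
def sg (g : A) : A →ₗ[ℝ] A where
  toFun T := -(g * T * g)
  map_add' a b := by noncomm_ring
  map_smul' c a := by simp

theorem sg_apply (g T : A) : sg g T = -(g * T * g) := rfl

theorem sg_sg (hγ : ON p γ) (j : Fin 4) {T : A} (hl : p * T = T) (hr : T * p = T) :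
    sg (γ j) (sg (γ j) T) = T := by
  have : sg (γ j) (sg (γ j) T) = (γ j * γ j) * T * (γ j * γ j) := by
    simp only [sg_apply]; noncomm_ring
  rw [this, hγ.sq, neg_mul, hl, mul_neg, neg_mul, hr, neg_neg]

theorem sg_comm (hγ : ON p γ) (j k : Fin 4) (T : A) :
    sg (γ j) (sg (γ k) T) = sg (γ k) (sg (γ j) T) := by
  by_cases h : j = k
  · rw [h]
  have e : ∀ j k : Fin 4, sg (γ j) (sg (γ k) T) = (γ j * γ k) * T * (γ k * γ j) := by
    intro j k; simp only [sg_apply]; noncomm_ring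
  rw [e, e, hγ.ac j k h]; simp

theorem sg_pl (hγ : ON p γ) (j : Fin 4) (T : A) : p * sg (γ j) T = sg (γ j) T := by
  rw [sg_apply, mul_neg, ← mul_assoc, ← mul_assoc, hγ.pl]

theorem sg_pr (hγ : ON p γ) (j : Fin 4) (T : A) : sg (γ j) T * p = sg (γ j) T := by
  rw [sg_apply, neg_mul, mul_assoc, hγ.pr]

/-- the volume element -/
def vol (γ : Fin 4 → A) : A := γ 0 * γ 1 * γ 2 * γ 3

theorem vol_rev (hγ : ON p γ) : γ 3 * γ 2 * γ 1 * γ 0 = vol γ := by
  have h01 := hγ.ac 1 0 (by decide)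
  have h02 := hγ.ac 2 0 (by decide)
  have h03 := hγ.ac 3 0 (by decide)
  have h12 := hγ.ac 2 1 (by decide)
  have h13 := hγ.ac 3 1 (by decide)
  have h23 := hγ.ac 3 2 (by decide)
  have e1 : γ 3 * γ 2 * γ 1 * γ 0 = (γ 3 * γ 2) * (γ 1 * γ 0) := by noncomm_ring
  have e2 : (γ 2 * γ 3) * (γ 0 * γ 1) = γ 2 * (γ 3 * γ 0) * γ 1 := by noncomm_ring
  have e3 : γ 2 * (γ 0 * γ 3) * γ 1 = (γ 2 * γ 0) * (γ 3 * γ 1) := by noncomm_ring
  have e4 : (γ 0 * γ 2) * (γ 1 * γ 3) = γ 0 * (γ 2 * γ 1) * γ 3 := by noncomm_ring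
  rw [e1, h23, h01, neg_mul_neg, e2, h03, mul_neg, neg_mul, e3, h02, h13, neg_mul_neg, e4, h12,
    mul_neg, neg_mul, neg_neg, vol]
  noncomm_ring

theorem vol_sq (hγ : ON p γ) (hp : p * p = p) : vol γ * vol γ = p := by
  conv_lhs => rw [← vol_rev hγ]; arg 1; rw [vol_rev hγ, vol]
  have : γ 0 * γ 1 * γ 2 * γ 3 * (γ 3 * γ 2 * γ 1 * γ 0) =
      γ 0 * (γ 1 * (γ 2 * (γ 3 * γ 3) * γ 2) * γ 1) * γ 0 := by noncomm_ring
  rw [this, hγ.sq, mul_neg, hγ.pr, neg_mul, hγ.sq, neg_neg, hγ.pr, hγ.sq, mul_neg, hγ.pr, neg_mul,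
    hγ.sq, neg_neg]

theorem vol_ac (hγ : ON p γ) (j : Fin 4) : vol γ * γ j = -(γ j * vol γ) := by
  have h01 := hγ.ac 1 0 (by decide)
  have h02 := hγ.ac 2 0 (by decide)
  have h03 := hγ.ac 3 0 (by decide)
  have h12 := hγ.ac 2 1 (by decide)
  have h13 := hγ.ac 3 1 (by decide)
  have h23 := hγ.ac 3 2 (by decide)
  have m : ∀ {a b : A}, a * b = -(b * a) → ∀ x : A, a * (b * x) = -(b * (a * x)) := by
    intro a b h x; rw [← mul_assoc, h, neg_mul, mul_assoc]
  fin_cases j <;>
    simp only [vol, mul_assoc, Fin.zero_eta, Fin.mk_one, Fin.reduceFinMk, Fin.isValue, h01, h02,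
      h03, h12, h13, h23, m h01, m h02, m h03, m h12, m h13, m h23, mul_neg, neg_neg]

theorem sg_all (hγ : ON p γ) (hp : p * p = p) {T : A} (hl : p * T = T)
    (hc : vol γ * T = T * vol γ) :
    sg (γ 0) (sg (γ 1) (sg (γ 2) (sg (γ 3) T))) = T := by
  have : sg (γ 0) (sg (γ 1) (sg (γ 2) (sg (γ 3) T))) = vol γ * T * (γ 3 * γ 2 * γ 1 * γ 0) := by
    simp only [sg_apply, vol]; noncomm_ring
  rw [this, vol_rev hγ, mul_assoc, ← hc, ← mul_assoc, vol_sq hγ hp, hl]

theorem cas_four (T : A) :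
    cas γ T = sg (γ 0) T + sg (γ 1) T + sg (γ 2) T + sg (γ 3) T := by
  simp only [cas, Fin.sum_univ_four, sg_apply]; abel

/-- `C (C + 4) T` is fixed by all conjugations, for even `T` -/
theorem sg_cas (hγ : ON p γ) (hp : p * p = p) {T : A} (hl : p * T = T) (hr : T * p = T)
    (hc : vol γ * T = T * vol γ) (j : Fin 4) :
    sg (γ j) (cas γ (cas γ T) + (4 : ℝ) • cas γ T) = cas γ (cas γ T) + (4 : ℝ) • cas γ T := by
  have hall := sg_all hγ hp hl hc
  have s := fun j => sg_sg hγ j hl hr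
  have s' := fun j k => sg_sg hγ j (sg_pl hγ k T) (sg_pr hγ k T)
  have c := sg_comm hγ
  -- `σ₂ σ₃ = σ₀ σ₁` and so on
  have a23 : sg (γ 2) (sg (γ 3) T) = sg (γ 0) (sg (γ 1) T) := by
    conv_rhs => rw [← hall, c 1 0, sg_sg hγ 0 (sg_pl hγ _ _) (sg_pr hγ _ _),
      sg_sg hγ 1 (sg_pl hγ _ _) (sg_pr hγ _ _)]
  have a3 : sg (γ 0) (sg (γ 1) (sg (γ 2) T)) = sg (γ 3) T := by
    rw [c 1 2, c 0 2, ← a23, s']
  have a2 : sg (γ 0) (sg (γ 1) (sg (γ 3) T)) = sg (γ 2) T := by
    rw [c 1 3, c 0 3, ← a23, c 2 3, s']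
  have a13 : sg (γ 1) (sg (γ 3) T) = sg (γ 0) (sg (γ 2) T) := by
    rw [← a2, sg_sg hγ 0 (sg_pl hγ _ _) (sg_pr hγ _ _)]
  have a12 : sg (γ 1) (sg (γ 2) T) = sg (γ 0) (sg (γ 3) T) := by
    rw [← a3, sg_sg hγ 0 (sg_pl hγ _ _) (sg_pr hγ _ _)]
  have a1 : sg (γ 0) (sg (γ 2) (sg (γ 3) T)) = sg (γ 1) T := by rw [a23, s']
  have key : cas γ (cas γ T) + (4 : ℝ) • cas γ T = (4 : ℝ) • (T + sg (γ 0) T + sg (γ 1) T +
      sg (γ 2) T + sg (γ 3) T + sg (γ 0) (sg (γ 1) T) + sg (γ 0) (sg (γ 2) T) +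
      sg (γ 0) (sg (γ 3) T)) := by
    simp only [cas_four, map_add, s, c 1 0, c 2 0, c 3 0, c 2 1, c 3 1, c 3 2, a23, a13, a12]
    module
  rw [key, map_smul]
  congr 1
  fin_cases j
  · simp only [Fin.zero_eta, map_add, s, s']; abel
  · simp only [Fin.mk_one, map_add, s, s', c 1 0, a2, a3, a13, a12]; abel
  · simp only [Fin.reduceFinMk, map_add, s, s', c 2 0, c 2 1, a1, a3, a23, a12]; abel
  · simp only [Fin.reduceFinMk, map_add, s, s', c 3 0, c 3 1, c 3 2, a1, a2, a23, a13]; abel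

theorem comm_of_sg (hγ : ON p γ) (j : Fin 4) {T : A} (hr : T * p = T) (h : sg (γ j) T = T) :
    T * γ j = γ j * T := by
  conv_lhs => rw [← h, sg_apply, neg_mul, mul_assoc, hγ.sq, mul_neg, neg_neg, mul_assoc, hr]

/-- **the explicit solution** -/
theorem omega4 (hγ : ON p γ) (hp : p * p = p) {τ : Fin 4 → A} (hτ : Der p γ τ)
    (hv : ∀ j, vol γ * τ j = -(τ j * vol γ)) (j : Fin 4) :
    τ j + (omega γ τ * γ j - γ j * omega γ τ) = 0 := by
  obtain ⟨ω, hl, hr, hc, hs⟩ := inner_fin hγ (vol γ) (vol_ac hγ) Finset.univ τ hτ hv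
  have hτe : ∀ k, τ k = γ k * ω - ω * γ k := fun k => by
    have := hs k (Finset.mem_univ k)
    rw [eq_neg_of_add_eq_zero_left this]; abel
  have he : eta γ τ = cas γ ω - (4 : ℝ) • ω := by
    have : ∀ k, γ k * τ k = -(γ k * ω * γ k) - ω := fun k => by
      rw [hτe, mul_sub, ← mul_assoc, ← mul_assoc, hγ.sq, neg_mul, hl]; abel
    simp only [eta, cas, this, Fin.sum_univ_four]
    module
  have hlin : cas γ (cas γ ω - (4 : ℝ) • ω) = cas γ (cas γ ω) - (4 : ℝ) • cas γ ω := by
    simp only [cas_four, map_sub, map_add, map_smul]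
    module
  set Z := cas γ (cas γ ω) + (4 : ℝ) • cas γ ω with hZ
  have ho : omega γ τ = ω - (1 / 32 : ℝ) • Z := by
    rw [omega, he, hlin, hZ]; module
  have hZr : Z * p = Z := by
    simp only [hZ, cas_four, add_mul, smul_mul_assoc, sg_pr hγ]
  have hZc := comm_of_sg hγ j hZr (sg_cas hγ hp hl hr hc j)
  rw [ho, sub_mul, mul_sub, smul_mul_assoc, mul_smul_comm, hZc, hτe]
  abel

end four

end

end Crest.Agent.X212.Spn45
end

-- ▼ part X212/Spn45/Gen
section

/-!
# X212 / SPIN (helper45), file Gen: derivations of a Clifford family are inner, explicitly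

`omG ρ θ = -(C³ + 8 C² + 28 C + 96) η / 384`, `η = ∑ ρ θ`, `C T = -∑ ρ T ρ`, for a spanning family
with a Gram projector of trace four.
-/

set_option autoImplicit false
set_option linter.unusedSectionVars false

open Finset

namespace Crest.Agent.X212.Spn45
open Wz78 (Pr Cl)

noncomputable section

variable {A : Type*} [Ring A] [Algebra ℝ A] {ι : Type*} [Fintype ι]

/-- `cas` as a linear map -/
def casL (ρ : ι → A) : A →ₗ[ℝ] A where
  toFun := cas ρ
  map_add' S T := by simp only [cas, mul_add, add_mul, sum_add_distrib, neg_add]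
  map_smul' c T := by
    simp only [cas, mul_smul_comm, smul_mul_assoc, ← smul_sum, RingHom.id_apply, smul_neg]

theorem casL_apply (ρ : ι → A) (T : A) : casL ρ T = -∑ a, ρ a * T * ρ a := rfl

/-- the polynomial `-(C³ + 8 C² + 28 C + 96) / 384` -/
def sP (ρ : ι → A) : A →ₗ[ℝ] A :=
  (-(1 / 384 : ℝ)) • (casL ρ ∘ₗ casL ρ ∘ₗ casL ρ + (8 : ℝ) • (casL ρ ∘ₗ casL ρ) +
    (28 : ℝ) • casL ρ + (96 : ℝ) • LinearMap.id)

theorem sP_apply (ρ : ι → A) (T : A) : sP ρ T = (-(1 / 384 : ℝ)) • (casL ρ (casL ρ (casL ρ T)) +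
    (8 : ℝ) • casL ρ (casL ρ T) + (28 : ℝ) • casL ρ T + (96 : ℝ) • T) := rfl

/-- the explicit inner derivation -/
def omG (ρ θ : ι → A) : A := sP ρ (∑ a, ρ a * θ a)

/-- derivation data for a spanning family -/
structure DerP (P : ι → ι → ℝ) (p : A) (ρ θ : ι → A) : Prop where
  pl : ∀ a, p * θ a = θ a
  pr : ∀ a, θ a * p = θ a
  rel : ∀ a b, θ a * ρ b + ρ a * θ b + θ b * ρ a + ρ b * θ a = 0
  proj : ∀ a, ∑ b, P a b • θ b = θ a

variable {P : ι → ι → ℝ} {p : A} {ρ θ : ι → A} {U : Fin 4 → ι → ℝ}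

open Std94 (fr)

theorem sum_fr (hU : Std94.ON P U) {B : Type*} [AddCommGroup B] [Module ℝ B]
    (β : A →ₗ[ℝ] A →ₗ[ℝ] B) {σ : ι → A} (hσ : ∀ a, ∑ b, P a b • σ b = σ a) (ρ : ι → A) :
    ∑ i, β (fr U ρ i) (fr U σ i) = ∑ a, β (ρ a) (σ a) := by
  simp only [fr, map_sum, map_smul, LinearMap.sum_apply, LinearMap.smul_apply, smul_sum, smul_smul]
  have e : ∑ a, β (ρ a) (σ a) = ∑ b, ∑ a, P a b • β (ρ a) (σ b) := by
    rw [sum_comm]
    refine sum_congr rfl fun a _ => ?_
    conv_lhs => rw [← hσ a, map_sum]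
    simp only [map_smul]
  rw [sum_comm, e]
  refine sum_congr rfl fun b _ => ?_
  rw [sum_comm]
  refine sum_congr rfl fun a _ => ?_
  rw [← sum_smul, ← hU.P a b]
  simp only [mul_comm]

theorem on_fr (hU : Std94.ON P U) (h : Cl P p ρ) : ON p (fr U ρ) where
  pl j := by simp only [fr, mul_sum, mul_smul_comm, h.pl]
  pr j := by simp only [fr, sum_mul, smul_mul_assoc, h.pr]
  sq j := by
    have := hU.rel h j j
    rw [if_pos rfl] at this
    have h2 : fr U ρ j * fr U ρ j + p + (fr U ρ j * fr U ρ j + p) = 0 := by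
      rw [add_add_add_comm, this]; module
    exact eq_neg_of_add_eq_zero_left (two_cancel h2)
  ac j k hjk := by
    have := hU.rel h j k
    rw [if_neg hjk] at this
    exact eq_neg_of_add_eq_zero_left (by simpa using this)

theorem der_fr (U : Fin 4 → ι → ℝ) (h : DerP P p ρ θ) : Der p (fr U ρ) (fr U θ) where
  pl j := by simp only [fr, mul_sum, mul_smul_comm, h.pl]
  pr j := by simp only [fr, sum_mul, smul_mul_assoc, h.pr]
  rel j k := by
    have e : ∀ (x y : ι → ℝ) (σ τ : ι → A), (∑ a, x a • σ a) * (∑ b, y b • τ b) =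
        ∑ a, ∑ b, (x a * y b) • (σ a * τ b) := by
      intro x y σ τ
      simp only [sum_mul_sum, smul_mul_smul_comm]
    have e' : ∀ (x y : ι → ℝ) (σ τ : ι → A), (∑ b, y b • σ b) * (∑ a, x a • τ a) =
        ∑ a, ∑ b, (x a * y b) • (σ b * τ a) := by
      intro x y σ τ
      rw [e, sum_comm]; simp only [mul_comm]
    simp only [fr]
    rw [e, e, e' (U j) (U k), e' (U j) (U k)]
    simp only [← sum_add_distrib, ← smul_add, h.rel, smul_zero, sum_const_zero]

theorem casL_fr (hU : Std94.ON P U) (h : Cl P p ρ) (T : A) :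
    casL ρ T = ∑ i, sg (fr U ρ i) T := by
  have := sum_fr hU ((LinearMap.mul ℝ A) ∘ₗ (LinearMap.mulRight ℝ T)) h.proj ρ
  simp only [LinearMap.comp_apply, LinearMap.mulRight_apply, LinearMap.mul_apply'] at this
  simp only [casL_apply, sg_apply, sum_neg_distrib, this]

theorem casL_pl (h : Cl P p ρ) (T : A) : p * casL ρ T = casL ρ T := by
  simp only [casL_apply, mul_neg, mul_sum, ← mul_assoc, h.pl]

theorem casL_pr (h : Cl P p ρ) (T : A) : casL ρ T * p = casL ρ T := by
  simp only [casL_apply, neg_mul, sum_mul, mul_assoc, h.pr]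

theorem omG_pl (h : Cl P p ρ) : p * omG ρ θ = omG ρ θ := by
  have : p * ∑ a, ρ a * θ a = ∑ a, ρ a * θ a := by simp only [mul_sum, ← mul_assoc, h.pl]
  simp only [omG, sP_apply, mul_smul_comm, mul_add, casL_pl h, this]

theorem omG_pr (h : Cl P p ρ) (hθ : ∀ a, θ a * p = θ a) : omG ρ θ * p = omG ρ θ := by
  have : (∑ a, ρ a * θ a) * p = ∑ a, ρ a * θ a := by simp only [sum_mul, mul_assoc, hθ]
  simp only [omG, sP_apply, smul_mul_assoc, add_mul, casL_pr h, this]

/-- **the explicit solution of `θ b + [ω, ρ b] = 0`** -/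
theorem omG_spec (hP : Pr P) (h4 : ∑ a, P a a = 4) (h : Cl P p ρ) (hθ : DerP P p ρ θ) (b : ι) :
    θ b + (omG ρ θ * ρ b - ρ b * omG ρ θ) = 0 := by
  obtain ⟨U, hU⟩ := Std94.exists_ON hP h4
  have hγ := on_fr hU h
  obtain ⟨ω, hl, hr, -, hs⟩ := inner_fin hγ 0 (by simp) univ _ (der_fr U hθ) (by simp)
  have hτe : ∀ k, fr U θ k = fr U ρ k * ω - ω * fr U ρ k := fun k => by
    have := hs k (mem_univ k)
    rw [eq_neg_of_add_eq_zero_left this]; abel
  have he : ∑ a, ρ a * θ a = casL ρ ω - (4 : ℝ) • ω := by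
    have h1 := sum_fr hU (LinearMap.mul ℝ A) hθ.proj ρ
    simp only [LinearMap.mul_apply'] at h1
    have : ∀ k, fr U ρ k * fr U θ k = sg (fr U ρ k) ω - ω := fun k => by
      rw [hτe, mul_sub, ← mul_assoc, ← mul_assoc, hγ.sq, neg_mul, hl, sg_apply]; abel
    rw [← h1, casL_fr hU h]
    simp only [this, Fin.sum_univ_four]
    module
  have ho : omG ρ θ = ω - Std94.qp (casL ρ) ω := by
    rw [omG, he, sP_apply, Std94.qp]
    simp only [map_sub, map_smul]
    module
  let e : A →ₗ[ℝ] A := LinearMap.mulLeft ℝ p ∘ₗ LinearMap.mulRight ℝ p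
  have ea : ∀ y, e y = p * (y * p) := fun _ => rfl
  have hq : ∀ i, sg (fr U ρ i) (Std94.qp (casL ρ) ω) = Std94.qp (casL ρ) ω := fun i =>
    Std94.qp_four (fun i => sg (fr U ρ i)) e
      (fun i y => by
        have : sg (fr U ρ i) (sg (fr U ρ i) y) =
            (fr U ρ i * fr U ρ i) * (y * (fr U ρ i * fr U ρ i)) := by
          simp only [sg_apply]; noncomm_ring
        rw [this, hγ.sq, ea]; simp)
      (sg_comm hγ) (fun i y => by rw [ea, sg_pr hγ, sg_pl hγ])
      (fun i y => by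
        rw [ea, sg_apply, sg_apply, ← mul_assoc, hγ.pr, mul_assoc, mul_assoc, hγ.pl, mul_assoc])
      (casL ρ) (casL_fr hU h) i ω
  have hZr : Std94.qp (casL ρ) ω * p = Std94.qp (casL ρ) ω := by
    simp only [Std94.qp, smul_mul_assoc, add_mul, sub_mul, casL_pr h]
  have hc : ∀ i, fr U θ i + (omG ρ θ * fr U ρ i - fr U ρ i * omG ρ θ) = 0 := fun i => by
    rw [ho, sub_mul, mul_sub, comm_of_sg hγ i hZr (hq i), hτe]; abel
  have hθb : θ b = ∑ i, U i b • fr U θ i := by
    simp only [fr, smul_sum, smul_smul]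
    rw [sum_comm]
    simp only [← sum_smul, hU.P, hθ.proj]
  rw [hθb, hU.rho_eq h b]
  simp only [mul_sum, sum_mul, mul_smul_comm, smul_mul_assoc, ← sum_sub_distrib,
    ← sum_add_distrib, ← smul_sub, ← smul_add, hc, smul_zero, sum_const_zero]

theorem casL_comm {X T : A} (hρ : ∀ a, X * ρ a = ρ a * X) (hT : X * T = T * X) :
    X * casL ρ T = casL ρ T * X := by
  simp only [casL_apply, mul_neg, neg_mul, mul_sum, sum_mul]
  congr 1
  exact sum_congr rfl fun a _ => by
    rw [← mul_assoc, ← mul_assoc, hρ, mul_assoc _ X, hT, ← mul_assoc, mul_assoc _ X, hρ,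
      ← mul_assoc]

theorem omG_comm {X : A} (hρ : ∀ a, X * ρ a = ρ a * X) (hθ : ∀ a, X * θ a = θ a * X) :
    X * omG ρ θ = omG ρ θ * X := by
  have h0 : X * ∑ a, ρ a * θ a = (∑ a, ρ a * θ a) * X := by
    simp only [mul_sum, sum_mul]
    exact sum_congr rfl fun a _ => by rw [← mul_assoc, hρ, mul_assoc, hθ, mul_assoc]
  have h1 := casL_comm hρ h0
  have h2 := casL_comm hρ h1
  have h3 := casL_comm hρ h2
  simp only [omG, sP_apply, mul_smul_comm, smul_mul_assoc, mul_add, add_mul, h0, h1, h2, h3]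

theorem omG_sum {κ : Type*} (s : Finset κ) (c : κ → ℝ) (θ : κ → ι → A) :
    omG ρ (fun b => ∑ k ∈ s, c k • θ k b) = ∑ k ∈ s, c k • omG ρ (θ k) := by
  simp only [omG, ← map_smul, ← map_sum, mul_sum, mul_smul_comm, smul_sum]
  rw [sum_comm]

theorem omG_zero : omG ρ (fun _ => 0) = 0 := by simp [omG]

/-- closure: any submodule stable under multiplication by the `ρ a` -/
theorem omG_mem (S : Submodule ℝ A) (hS : ∀ a, ∀ T ∈ S, ρ a * T * ρ a ∈ S)
    (h0 : ∑ a, ρ a * θ a ∈ S) : omG ρ θ ∈ S := by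
  have hc : ∀ T ∈ S, casL ρ T ∈ S := fun T hT => S.neg_mem (S.sum_mem fun a _ => hS a T hT)
  rw [omG, sP_apply]
  exact S.smul_mem _ (S.add_mem (S.add_mem (S.add_mem (hc _ (hc _ (hc _ h0)))
    (S.smul_mem _ (hc _ (hc _ h0)))) (S.smul_mem _ (hc _ h0))) (S.smul_mem _ h0))

/-- naturality under multiplicative linear maps -/
theorem map_omG {A' : Type*} [Ring A'] [Algebra ℝ A'] (φ : A →ₗ[ℝ] A')
    (hφ : ∀ S T, φ (S * T) = φ S * φ T) (ρ θ : ι → A) :
    φ (omG ρ θ) = omG (fun a => φ (ρ a)) (fun a => φ (θ a)) := by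
  have hc : ∀ T, φ (casL ρ T) = casL (fun a => φ (ρ a)) (φ T) := fun T => by
    simp only [casL_apply, map_neg, map_sum, hφ]
  simp only [omG, sP_apply, map_smul, map_add, hc, map_sum, hφ]

theorem omG_apply {X : Type*} (ρ θ : ι → X → A) (x : X) :
    omG ρ θ x = omG (fun a => ρ a x) (fun a => θ a x) :=
  map_omG (A := X → A) (LinearMap.proj x) (fun _ _ => rfl) ρ θ

end

end Crest.Agent.X212.Spn45
end

-- ▼ part X212/Spn45/Cc

/-!
# X212 / SPIN (helper45), file Cc: the canonical Clifford connection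

`w2 I e Γ p ρ` is a Clifford connection (`Wz78.CC`) for every smooth Clifford family over a frame of
rank four; it is skew, commutes with the parallel commutant, and is a polynomial in the first jets.
`chg` : change of the frame `e ↦ S e`.
-/

set_option autoImplicit false
set_option linter.unusedSectionVars false

open scoped Manifold ContDiff Topology InnerProductSpace
open Finset Filter

noncomputable section
namespace Crest.Agent.X212.Spn45
open Sob92 Wz78

variable {E H : Type*} [NormedAddCommGroup E] [NormedSpace ℝ E] [TopologicalSpace H]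
  {I : ModelWithCorners ℝ E H} {M : Type*} [TopologicalSpace M] [ChartedSpace H M]
  {V W X : Type*} [NormedAddCommGroup V] [InnerProductSpace ℝ V] [NormedAddCommGroup W]
  [NormedSpace ℝ W] [NormedAddCommGroup X] [NormedSpace ℝ X]
  {ι : Type*} [Fintype ι] [IsManifold I 1 M]

/-- skew operators -/
def Sk (T : V →L[ℝ] V) : Prop := ∀ v w, ⟪T v, w⟫_ℝ = -⟪v, T w⟫_ℝ

/-- symmetric operators -/
def Sy (T : V →L[ℝ] V) : Prop := ∀ v w, ⟪T v, w⟫_ℝ = ⟪v, T w⟫_ℝ

variable (V) in
/-- the space of skew operators -/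
def skS : Submodule ℝ (V →L[ℝ] V) where
  carrier := {T | Sk T}
  zero_mem' := fun _ _ => by simp
  add_mem' := fun {S T} h k v w => by
    simp only [add_apply, inner_add_left, inner_add_right, h v w, k v w]; ring
  smul_mem' := fun c T h v w => by
    simp only [smul_apply, real_inner_smul_left, real_inner_smul_right, h v w]; ring

variable (V) in
/-- the space of symmetric operators -/
def syS : Submodule ℝ (V →L[ℝ] V) where
  carrier := {T | Sy T}
  zero_mem' := fun _ _ => by simp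
  add_mem' := fun {S T} h k v w => by
    simp only [add_apply, inner_add_left, inner_add_right, h v w, k v w]
  smul_mem' := fun c T h v w => by
    simp only [smul_apply, real_inner_smul_left, real_inner_smul_right, h v w]

theorem Sk.lie {S T : V →L[ℝ] V} (h : Sk S) (k : Sk T) : Sk (S * T - T * S) := fun v w => by
  simp only [sub_apply, mul_apply_eq_comp, inner_sub_left, inner_sub_right, h _ w, k _ w, h v _,
    k v _]
  ring

theorem Sy.lie {S T : V →L[ℝ] V} (h : Sy S) (k : Sy T) : Sk (S * T - T * S) := fun v w => by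
  simp only [sub_apply, mul_apply_eq_comp, inner_sub_left, inner_sub_right, h _ w, k _ w, h v _,
    k v _]
  ring

theorem Sk.lie_sy {S T : V →L[ℝ] V} (h : Sk S) (k : Sy T) : Sy (S * T - T * S) := fun v w => by
  simp only [sub_apply, mul_apply_eq_comp, inner_sub_left, inner_sub_right, h _ w, k _ w, h v _,
    k v _]
  ring

theorem Sk.mul_sy {S T : V →L[ℝ] V} (h : Sk S) (k : Sy T) (c : S * T = T * S) : Sk (S * T) :=
  fun v w => by
    conv_rhs => rw [c]
    simp only [mul_apply_eq_comp, h _ w, k v _]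

theorem Sk.conj {S T : V →L[ℝ] V} (h : Sk S) (k : Sk T) : Sk (S * T * S) := fun v w => by
  simp only [mul_apply_eq_comp, h _ w, k _ (S w), h v _]
  ring

theorem omG_sk {ρ θ : ι → V →L[ℝ] V} (hρ : ∀ a, Sk (ρ a)) (hθ : ∀ a, Sk (θ a))
    (h : ∀ a, θ a * ρ a = -(ρ a * θ a)) : Sk (omG ρ θ) := by
  refine omG_mem (skS V) (fun a T hT => (hρ a).conj hT) ((skS V).sum_mem fun a _ v w => ?_)
  have := congrArg (fun T : V →L[ℝ] V => T w) (h a)
  simp only [mul_apply_eq_comp, neg_apply] at this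
  simp only [mul_apply_eq_comp, hρ a _ w, hθ a v _, this, inner_neg_right, neg_neg]

theorem spin_sk {ρ : ι → V →L[ℝ] V} (hρ : ∀ a, Sk (ρ a)) {w : ι → ι → ℝ}
    (hs : ∀ m l, w m l = -w l m) : Sk (spin ρ w) := by
  have e : spin ρ w = (1 / 8 : ℝ) • ∑ m, ∑ l, w m l • (ρ m * ρ l - ρ l * ρ m) := by
    have : ∑ m, ∑ l, w m l • (ρ l * ρ m) = -∑ m, ∑ l, w m l • (ρ m * ρ l) := by
      rw [sum_comm]
      simp only [← sum_neg_distrib, ← neg_smul]
      exact sum_congr rfl fun m _ => sum_congr rfl fun l _ => by rw [hs l m]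
    simp only [smul_sub, sum_sub_distrib, this, spin]
    module
  rw [e]
  exact (skS V).smul_mem _ ((skS V).sum_mem fun m _ => (skS V).sum_mem fun l _ =>
    (skS V).smul_mem _ ((hρ m).lie (hρ l)))

variable {e : ι → (x : M) → TangentSpace I x} {v : (x : M) → TangentSpace I x}

theorem dv_lin_zero (L : W →L[ℝ] X) {f : M → W} {x : M} (hf : SA I f x) (h : ∀ y, L (f y) = 0) :
    L (dv I v f x) = 0 := by
  rw [← dv_clm L hf.md, show (fun y => L (f y)) = fun _ => 0 from funext h, dv_const]; rfl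

/-- the functional `T ↦ ⟪T v, w⟫ + s ⟪v, T w⟫` -/
def bf (s : ℝ) (v w : V) : (V →L[ℝ] V) →L[ℝ] ℝ :=
  innerSL ℝ w ∘L ContinuousLinearMap.apply ℝ V v + s • (innerSL ℝ v ∘L ContinuousLinearMap.apply ℝ V w)

theorem bf_apply (s : ℝ) (v w : V) (T : V →L[ℝ] V) : bf s v w T = ⟪T v, w⟫_ℝ + s * ⟪v, T w⟫_ℝ := by
  simp [bf, real_inner_comm]

theorem dv_sk {f : M → V →L[ℝ] V} {x : M} (hf : SA I f x) (h : ∀ y, Sk (f y)) :
    Sk (dv I v f x) := fun a b => by
  have := dv_lin_zero (v := v) (bf 1 a b) hf fun y => by rw [bf_apply, h y a b]; ring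
  rw [bf_apply] at this; linarith

theorem dv_sy {f : M → V →L[ℝ] V} {x : M} (hf : SA I f x) (h : ∀ y, Sy (f y)) :
    Sy (dv I v f x) := fun a b => by
  have := dv_lin_zero (v := v) (bf (-1) a b) hf fun y => by rw [bf_apply, h y a b]; ring
  rw [bf_apply] at this; linarith

theorem dv_comm {𝔸 : Type*} [NormedRing 𝔸] [NormedAlgebra ℝ 𝔸] {f : M → 𝔸} {x : M} {J : 𝔸}
    (hf : SA I f x) (h : ∀ y, J * f y = f y * J) : J * dv I v f x = dv I v f x * J := by
  have := dv_lin_zero (v := v)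
    (ContinuousLinearMap.mul ℝ 𝔸 J - (ContinuousLinearMap.mul ℝ 𝔸).flip J) hf fun y => by simp [h y]
  simpa [sub_eq_zero] using this

theorem dv_fun_congr {f g : M → W} (h : ∀ y, f y = g y) (x : M) : dv I v f x = dv I v g x := by
  rw [show f = g from funext h]

section defs
variable (I) (e) (Γ : ι → ι → ι → M → ℝ) (p : M → V →L[ℝ] V) (ρ : ι → M → V →L[ℝ] V)

/-- the projector connection -/
def w1 (a : ι) (x : M) : V →L[ℝ] V := p x * dv I (e a) p x - dv I (e a) p x * p x

/-- the defect of the projector connection -/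
def th (a b : ι) (x : M) : V →L[ℝ] V :=
  dv I (e a) (ρ b) x + (w1 I e p a x * ρ b x - ρ b x * w1 I e p a x) - ∑ k, Γ a b k x • ρ k x

/-- the canonical Clifford connection -/
def w2 (a : ι) (x : M) : V →L[ℝ] V :=
  w1 I e p a x + omG (fun b => ρ b x) fun b => th I e Γ p ρ a b x

/-- smooth Clifford data of rank four -/
structure CD (P : ι → ι → M → ℝ) : Prop where
  sp : ∀ x, SA I p x
  sρ : ∀ a x, SA I (ρ a) x
  cl : ∀ x, Cl (fun a b => P a b x) (p x) fun a => ρ a x
  idem : ∀ x, p x * p x = p x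
  rk : ∀ x, ∑ a, P a a x = 4

end defs

variable {P : ι → ι → M → ℝ} {c Γ : ι → ι → ι → M → ℝ} {p : M → V →L[ℝ] V}
  {ρ : ι → M → V →L[ℝ] V}

theorem dp_eq (sp : ∀ x, SA I p x) (idem : ∀ x, p x * p x = p x) (x : M) :
    dv I v p x * p x + p x * dv I v p x = dv I v p x := by
  rw [← dv_mul (sp x) (sp x)]; exact dv_fun_congr idem x

theorem w1_par (sp : ∀ x, SA I p x) (idem : ∀ x, p x * p x = p x) (a : ι) (x : M) :
    dv I (e a) p x + (w1 I e p a x * p x - p x * w1 I e p a x) = 0 := by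
  have h := dp_eq (v := e a) sp idem x
  have h0 : p x * dv I (e a) p x * p x = 0 := by
    have := congrArg (fun T => p x * T) h
    simp only [mul_add, ← mul_assoc, idem] at this
    simpa using this
  have : w1 I e p a x * p x - p x * w1 I e p a x = p x * dv I (e a) p x * p x -
      dv I (e a) p x * (p x * p x) - p x * p x * dv I (e a) p x + p x * dv I (e a) p x * p x := by
    simp only [w1]; noncomm_ring
  rw [this, h0, idem]
  nth_rewrite 1 [← h]
  abel

theorem CD.derP (D : CD I p ρ P) (F : Frm I e P c) (L : LC I e P c Γ) (a : ι) (x : M) :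
    DerP (fun a b => P a b x) (p x) (fun b => ρ b x) fun b => th I e Γ p ρ a b x := by
  have hp := w1_par (e := e) D.sp D.idem a x
  have C := D.cl x
  have hp' : dv I (e a) p x = -(w1 I e p a x * p x - p x * w1 I e p a x) :=
    eq_neg_of_add_eq_zero_left hp
  refine ⟨fun b => ?_, fun b => ?_, fun b k => ?_, fun b => ?_⟩
  · have h1 : dv I (e a) (ρ b) x = dv I (e a) p x * ρ b x + p x * dv I (e a) (ρ b) x := by
      rw [← dv_mul (D.sp x) (D.sρ b x)]; exact dv_fun_congr (fun y => ((D.cl y).pl b).symm) x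
    simp only [th, mul_sub, mul_add, mul_sum, mul_smul_comm, C.pl]
    conv_rhs => rw [h1, hp']
    have := C.pl b
    simp only [← mul_assoc, neg_mul, sub_mul, this]
    rw [mul_assoc _ (p x), this]
    abel
  · have h1 : dv I (e a) (ρ b) x = dv I (e a) (ρ b) x * p x + ρ b x * dv I (e a) p x := by
      rw [← dv_mul (D.sρ b x) (D.sp x)]; exact dv_fun_congr (fun y => ((D.cl y).pr b).symm) x
    simp only [th, sub_mul, add_mul, sum_mul, smul_mul_assoc, C.pr]
    conv_rhs => rw [h1, hp']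
    have := C.pr b
    simp only [mul_assoc, mul_neg, mul_sub, this]
    rw [← mul_assoc _ (p x), this]
    abel
  · have h1 : dv I (e a) (ρ b) x * ρ k x + ρ b x * dv I (e a) (ρ k) x +
        (dv I (e a) (ρ k) x * ρ b x + ρ k x * dv I (e a) (ρ b) x) =
        (-2 * dv I (e a) (P b k) x) • p x + (-2 * P b k x) • dv I (e a) p x := by
      rw [← dv_mul (D.sρ b x) (D.sρ k x), ← dv_mul (D.sρ k x) (D.sρ b x),
        ← dv_add' ((D.sρ b x).mul (D.sρ k x)) ((D.sρ k x).mul (D.sρ b x)),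
        dv_fun_congr (fun y => (D.cl y).rel b k) x,
        dv_smul (SA.mul contMDiffAt_const (F.sP b k x)).md (D.sp x).md,
        dv_mul contMDiffAt_const (F.sP b k x), dv_const]
      simp
    have h2 : ∀ b k, (∑ l, Γ a b l x • ρ l x) * ρ k x + ρ k x * ∑ l, Γ a b l x • ρ l x =
        (-2 * Γ a b k x) • p x := fun b k => by
      simp only [sum_mul, mul_sum, smul_mul_assoc, mul_smul_comm, ← sum_add_distrib, ← smul_add,
        C.rel, smul_smul, ← sum_smul]
      rw [← L.proj a b k x, mul_sum]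
      congr 1
      exact sum_congr rfl fun l _ => by ring
    have h3 : w1 I e p a x * (ρ b x * ρ k x + ρ k x * ρ b x) -
        (ρ b x * ρ k x + ρ k x * ρ b x) * w1 I e p a x =
        (-2 * P b k x) • (w1 I e p a x * p x - p x * w1 I e p a x) := by
      rw [C.rel, mul_smul_comm, smul_mul_assoc, smul_sub]
    have : th I e Γ p ρ a b x * ρ k x + ρ b x * th I e Γ p ρ a k x + th I e Γ p ρ a k x * ρ b x +
        ρ k x * th I e Γ p ρ a b x = (dv I (e a) (ρ b) x * ρ k x + ρ b x * dv I (e a) (ρ k) x +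
        (dv I (e a) (ρ k) x * ρ b x + ρ k x * dv I (e a) (ρ b) x)) +
        (w1 I e p a x * (ρ b x * ρ k x + ρ k x * ρ b x) -
        (ρ b x * ρ k x + ρ k x * ρ b x) * w1 I e p a x) -
        ((∑ l, Γ a b l x • ρ l x) * ρ k x + ρ k x * ∑ l, Γ a b l x • ρ l x) -
        ((∑ l, Γ a k l x • ρ l x) * ρ b x + ρ b x * ∑ l, Γ a k l x • ρ l x) := by
      simp only [th]; noncomm_ring
    rw [this, h1, h2, h2, h3, hp', L.met]
    module
  · have h1 : dv I (e a) (ρ b) x =
        ∑ k, (dv I (e a) (P b k) x • ρ k x + P b k x • dv I (e a) (ρ k) x) := by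
      rw [← dv_fun_congr (fun y => (D.cl y).proj b) x,
        dv_sum' _ fun k => (F.sP b k x).smul (D.sρ k x)]
      exact sum_congr rfl fun k _ => dv_smul (F.sP b k x).md (D.sρ k x).md
    have h2 : ∑ k, P b k x • ∑ l, Γ a k l x • ρ l x =
        ∑ l, Γ a b l x • ρ l x - ∑ k, dv I (e a) (P b k) x • ρ k x := by
      simp only [smul_sum, smul_smul]
      rw [sum_comm]
      simp only [← sum_smul, L.proj2 F]
      simp only [sub_smul, sum_sub_distrib, sum_smul]
      congr 1
      rw [sum_comm]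
      exact sum_congr rfl fun m _ => by
        have := C.proj m
        simp only [mul_smul, ← smul_sum, this]
    have h3 : ∑ k, P b k x • (w1 I e p a x * ρ k x - ρ k x * w1 I e p a x) =
        w1 I e p a x * ρ b x - ρ b x * w1 I e p a x := by
      conv_rhs => rw [← C.proj b]
      simp only [mul_sum, sum_mul, mul_smul_comm, smul_mul_assoc, smul_sub, sum_sub_distrib]
    simp only [th, smul_sub, smul_add, sum_sub_distrib, sum_add_distrib, h2] at h3 ⊢
    rw [h3, h1, sum_add_distrib]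
    abel

theorem w1_sa (F : Frm I e P c) (sp : ∀ x, SA I p x) (a : ι) (x : M) : SA I (w1 I e p a) x :=
  ((sp x).mul (F.sD a (sp x))).sub ((F.sD a (sp x)).mul (sp x))

theorem CD.th_sa (D : CD I p ρ P) (F : Frm I e P c) (L : LC I e P c Γ) (a b : ι) (x : M) :
    SA I (th I e Γ p ρ a b) x :=
  ((F.sD a (D.sρ b x)).add (((w1_sa F D.sp a x).mul (D.sρ b x)).sub
    ((D.sρ b x).mul (w1_sa F D.sp a x)))).sub (SA.sum _ fun k _ => (L.sm a b k x).smul (D.sρ k x))

variable (I W) in
/-- functions smooth at a point -/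
def saS (x : M) : Submodule ℝ (M → W) where
  carrier := {f | SA I f x}
  zero_mem' := contMDiffAt_const
  add_mem' := fun h k => h.add k
  smul_mem' := fun c _ h => SA.smul (f := fun _ => c) contMDiffAt_const h

theorem omG_sa {ρ θ : ι → M → V →L[ℝ] V} {x : M} (hρ : ∀ a, SA I (ρ a) x)
    (hθ : ∀ a, SA I (θ a) x) : SA I (fun y => omG (fun b => ρ b y) fun b => θ b y) x := by
  have := omG_mem (ρ := ρ) (θ := θ) (saS I (V →L[ℝ] V) x)
    (fun a T hT => ((hρ a).mul hT).mul (hρ a)) ((saS I _ x).sum_mem fun a _ => (hρ a).mul (hθ a))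
  simp only [← omG_apply]
  exact this

theorem w1_proj (F : Frm I e P c) (a : ι) (x : M) : ∑ b, P a b x • w1 I e p b x = w1 I e p a x := by
  simp only [w1]
  rw [← F.projD a p x]
  simp only [mul_sum, sum_mul, mul_smul_comm, smul_mul_assoc, smul_sub, sum_sub_distrib]

theorem th_proj (F : Frm I e P c) (L : LC I e P c Γ) (S : Sep I e P) (a b : ι) (x : M) :
    ∑ k, P a k x • th I e Γ p ρ k b x = th I e Γ p ρ a b x := by
  simp only [th]
  rw [← F.projD a (ρ b) x, ← w1_proj F a x]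
  simp only [← L.proj1 F S a b, sum_smul, mul_sum, sum_mul, mul_smul_comm, smul_mul_assoc,
    smul_sub, smul_add, sum_sub_distrib, sum_add_distrib, smul_sum, smul_smul]
  rw [sum_comm (f := fun k l => (P a k x * Γ k b l x) • ρ l x)]

/-- **the canonical connection is a Clifford connection** -/
theorem CD.cc (D : CD I p ρ P) (F : Frm I e P c) (L : LC I e P c Γ) (S : Sep I e P) :
    CC I e P Γ p ρ (w2 I e Γ p ρ) where
  sm a x := (w1_sa F D.sp a x).add (omG_sa (fun b => D.sρ b x) fun b => D.th_sa F L a b x)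
  proj a x := by
    simp only [w2, smul_add, sum_add_distrib, w1_proj F, ← omG_sum, th_proj F L S]
  sp := D.sp
  sρ := D.sρ
  cl := D.cl
  par a x := by
    have h := w1_par (e := e) D.sp D.idem a x
    simp only [w2, add_mul, mul_add, omG_pl (D.cl x), omG_pr (D.cl x) (D.derP F L a x).pr]
    rw [← h]; abel
  comp a b x := by
    have h := omG_spec (F.pr x) (D.rk x) (D.cl x) (D.derP F L a x) b
    rw [← sub_eq_zero, ← h]
    simp only [w2, add_mul, mul_add, th]
    abel

theorem CD.w2_sk (D : CD I p ρ P) (F : Frm I e P c) (L : LC I e P c Γ) (hp : ∀ x, Sy (p x))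
    (hρ : ∀ a x, Sk (ρ a x)) (a : ι) (x : M) : Sk (w2 I e Γ p ρ a x) := by
  have h1 : Sk (w1 I e p a x) := (hp x).lie (dv_sy (D.sp x) hp)
  refine (skS V).add_mem h1 (omG_sk (fun b => hρ b x) (fun b => ?_) fun b => ?_)
  · exact (skS V).sub_mem ((skS V).add_mem (dv_sk (D.sρ b x) (hρ b)) (h1.lie (hρ b x)))
      ((skS V).sum_mem fun k _ => (skS V).smul_mem _ (hρ k x))
  · have := (D.derP F L a x).rel b b
    exact eq_neg_of_add_eq_zero_left (two_cancel (by rw [← this]; abel))

theorem CD.w2_comm (D : CD I p ρ P) {J : V →L[ℝ] V} (hp : ∀ x, J * p x = p x * J)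
    (hρ : ∀ a x, J * ρ a x = ρ a x * J) (a : ι) (x : M) :
    J * w2 I e Γ p ρ a x = w2 I e Γ p ρ a x * J := by
  have h1 : J * w1 I e p a x = w1 I e p a x * J :=
    (((show Commute J _ from hp x).mul_right (dv_comm (D.sp x) hp)).sub_right
      ((show Commute J _ from dv_comm (D.sp x) hp).mul_right (hp x))).eq
  have h2 : ∀ b, J * th I e Γ p ρ a b x = th I e Γ p ρ a b x * J := fun b =>
    (((show Commute J _ from dv_comm (D.sρ b x) (hρ b)).add_right
      (((show Commute J _ from h1).mul_right (hρ b x)).sub_right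
        ((show Commute J _ from hρ b x).mul_right h1))).sub_right
      (Commute.sum_right _ _ _ fun k _ => (show Commute J _ from hρ k x).smul_right _)).eq
  rw [w2, mul_add, add_mul, h1, omG_comm (fun b => hρ b x) h2]

/-! ### change of the frame -/

/-- the difference of the Levi-Civita coefficients -/
def dG (S : ι → ι → M → ℝ) (Γ Γ' : ι → ι → ι → M → ℝ) (a b k : ι) (x : M) : ℝ :=
  Γ' a b k x - ∑ l, S a l x * Γ l b k x

theorem dG_skew {e' : ι → (x : M) → TangentSpace I x} {c' Γ' : ι → ι → ι → M → ℝ}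
    {S : ι → ι → M → ℝ} (L : LC I e P c Γ) (L' : LC I e' P c' Γ')
    (hD : ∀ a (f : M → ℝ) x, dv I (e' a) f x = ∑ l, S a l x * dv I (e l) f x) (a b k : ι) (x : M) :
    dG S Γ Γ' a b k x = -dG S Γ Γ' a k b x := by
  have h := hD a (P b k) x
  simp only [L'.met, L.met, mul_add, sum_add_distrib] at h
  simp only [dG]; linarith

theorem dG_proj {e' : ι → (x : M) → TangentSpace I x} {c' Γ' : ι → ι → ι → M → ℝ}
    {S : ι → ι → M → ℝ} (L : LC I e P c Γ) (L' : LC I e' P c' Γ') (a b k : ι) (x : M) :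
    ∑ l, dG S Γ Γ' a b l x * P l k x = dG S Γ Γ' a b k x := by
  simp only [dG, sub_mul, sum_sub_distrib, L'.proj, sum_mul]
  rw [sum_comm]
  simp only [mul_assoc, ← mul_sum, L.proj]

/-- a Clifford connection for the frame `e' = S e` -/
theorem cc_chg {e' : ι → (x : M) → TangentSpace I x} {c' Γ' : ι → ι → ι → M → ℝ}
    {S : ι → ι → M → ℝ} {A : ι → M → V →L[ℝ] V} (C : CC I e P Γ p ρ A) (L : LC I e P c Γ)
    (F' : Frm I e' P c') (L' : LC I e' P c' Γ') (S' : Sep I e' P) (sS : ∀ a b x, SA I (S a b) x)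
    (PS : ∀ a b x, ∑ k, P a k x * S k b x = S a b x)
    (hD : ∀ a (f : M → ℝ) x, dv I (e' a) f x = ∑ l, S a l x * dv I (e l) f x)
    (hD' : ∀ a (f : M → V →L[ℝ] V) x, dv I (e' a) f x = ∑ l, S a l x • dv I (e l) f x) :
    CC I e' P Γ' p ρ fun a x => ∑ b, S a b x • A b x +
      spin (fun b => ρ b x) fun b k => dG S Γ Γ' a b k x where
  sm a x := (SA.sum _ fun b _ => (sS a b x).smul (C.sm b x)).add
    (SA.smul (f := fun _ => (1 / 4 : ℝ)) contMDiffAt_const (SA.sum _ fun b _ => SA.sum _ fun k _ =>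
      SA.smul ((L'.sm a b k x).sub (SA.sum _ fun l _ => (sS a l x).mul (L.sm l b k x)))
        ((C.sρ b x).mul (C.sρ k x))))
  proj a x := by
    simp only [smul_add, sum_add_distrib, ← spin_smul, ← spin_sum, smul_sum, smul_smul]
    congr 1
    · rw [sum_comm]; simp only [← sum_smul, PS]
    · congr 1
      funext b k
      simp only [dG, mul_sub, sum_sub_distrib, L'.proj1 F' S', mul_sum]
      rw [sum_comm]
      simp only [← mul_assoc, ← sum_mul, PS]
  sp := C.sp
  sρ := C.sρ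
  cl := C.cl
  par a x := by
    rw [hD', add_mul, mul_add, (C.cl x).p_spin, (C.cl x).spin_p, add_sub_add_right_eq_sub]
    simp only [sum_mul, mul_sum, smul_mul_assoc, mul_smul_comm, ← sum_sub_distrib,
      ← sum_add_distrib, ← smul_sub, ← smul_add, C.par, smul_zero, sum_const_zero]
  comp a b x := by
    have h := (C.cl x).spin_comm
      (fun b k => dG_skew L L' hD a b k x) (fun b k => dG_proj L L' a b k x) b
    have h2 : dv I (e' a) (ρ b) x + ((∑ l, S a l x • A l x) * ρ b x - ρ b x * ∑ l, S a l x • A l x)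
        = ∑ k, (∑ l, S a l x * Γ l b k x) • ρ k x := by
      rw [hD']
      simp only [sum_mul, mul_sum, smul_mul_assoc, mul_smul_comm, ← sum_sub_distrib,
        ← sum_add_distrib, ← smul_sub, ← smul_add, C.comp, smul_sum, smul_smul, sum_smul]
      exact sum_comm
    rw [add_mul, mul_add, add_sub_add_comm, ← add_assoc, h2, h, ← sum_add_distrib]
    exact sum_congr rfl fun k _ => by rw [← add_smul, dG]; congr 1; ring

end Crest.Agent.X212.Spn45
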